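import Vale.Agent.P287D.St
import Vale.Agent.P287D.Va.Cone
import Vale.Agent.P287D.Ba.Bar
import Vale.Agent.P287D.Bm.Sub
import Vale.Agent.P287D.I.Pos

/-!
# P287D: effective principal b-divisors vanish; rational Cartier b-divisors
-/

set_option linter.all false

open Set
open Vale.Agent.P277Z Vale.Agent.P277Z.FI

noncomputable section

namespace Vale.Agent.P287D.Fs

variable {n : ℕ} {K : Type} [Field K] [Algebra ℂ K] {β γ : BD K}

/-- an effective real combination of principal b-divisors vanishes -/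
theorem prn_zero (hK : FF K n) (h : β ∈ Prn K) (h0 : 0 ≤ β) : β = 0 := by
  cases n with
  | zero => exact funext fun P => (Bm.no_pl hK P).elim
  | succ n =>
    obtain ⟨M, hM⟩ := Bm.exists_mdl hK
    obtain ⟨D, h1, rfl⟩ := Ba.prn_bar hM h
    have hc : I.Pc M := ⟨hM, Ba.cpt M⟩
    obtain ⟨A, h2, -, h3⟩ := hc.pos.ex
    have h4 : 0 ≤ D := fun Q => by
      by_cases e : M.Pr Q
      · exact Ba.bar_pr hM (P := Bm.toPl hM e) e D ▸ h0 _
      · exact (dv_iff.1 (F5.prR_dv h1) Q e).ge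
    rw [I.eff_eq_zero (a := fun _ => A) hc h4 (F5.prR_dv h1) (fun _ => ⟨h2, h3⟩)
      (I.cons_prR hc h1 _).le, map_zero]

theorem prn_eq (hK : FF K n) (h : γ - β ∈ Prn K) (e : β ≤ γ) : β = γ :=
  (sub_eq_zero.1 (prn_zero hK h (sub_nonneg.2 e))).symm

theorem rep_zero (hK : FF K n) (h : β ∈ Prn K) (r : Rep β γ) : γ = 0 :=
  prn_zero hK (by simpa using add_mem r.2 h) r.1

theorem eff_anti (hK : FF K n) (h : Eff β) (h' : Eff (-β)) : β ∈ Prn K := by
  obtain ⟨G, a⟩ := h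
  obtain ⟨G', b⟩ := h'
  have e := rep_zero hK (by simp) (a.add b)
  have k : G = 0 := le_antisymm (e ▸ le_add_of_nonneg_right b.1) a.1
  simpa [k] using a.2

/-- a function without poles is constant -/
theorem dv_zero_of_nonneg (hK : FF K n) {f : K} (h : 0 ≤ dv f) : dv f = 0 :=
  prn_zero hK (dv_mem_Prn f) h

/-- a rational linear retraction of the reals -/
theorem exists_retr : ∃ π : ℝ →ₗ[ℚ] ℚ, ∀ q : ℚ, π q = q := by
  obtain ⟨π, h⟩ := (Algebra.linearMap ℚ ℝ).exists_leftInverse_of_injective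
    (LinearMap.ker_eq_bot.2 (algebraMap ℚ ℝ).injective)
  exact ⟨π, fun q => LinearMap.congr_fun h q⟩

/-- the coefficients of a real combination of integral b-divisors with rational values can be
taken rational -/
theorem sum_rat {ι : Type*} (T : Finset ι) (a : ι → ℝ) {b : ι → BD K} (hb : ∀ i ∈ T, IsZ (b i)) :
    ∃ q : ι → ℚ, ∀ P (r : ℚ), (∑ i ∈ T, a i • b i) P = r → (∑ i ∈ T, (q i : ℝ) • b i) P = r := by
  obtain ⟨π, h⟩ := exists_retr
  refine ⟨fun i => π (a i), fun P r e => ?_⟩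
  choose! z hz using fun i hi => hb i hi P
  have k : ∀ c : ι → ℝ, (∑ i ∈ T, c i • b i) P = ∑ i ∈ T, (z i : ℚ) • c i := fun c => by
    rw [Finset.sum_apply]
    exact Finset.sum_congr rfl fun i hi => by
      rw [Pi.smul_apply, hz i hi, Rat.smul_def, Rat.cast_intCast, smul_eq_mul, mul_comm]
  rw [k] at e ⊢
  rw [← h r, ← e, map_sum, Rat.cast_sum]
  exact Finset.sum_congr rfl fun i _ => by
    rw [map_smul, smul_eq_mul, Rat.cast_mul, Rat.smul_def]

/-- a Cartier b-divisor with rational values is rational -/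
theorem carQ_of_rat (h : β ∈ Car K) (hq : ∀ P, ∃ q : ℚ, β P = q) : CarQ β := by
  obtain ⟨l, rfl⟩ := mem_Car.1 h
  obtain ⟨q, e⟩ := sum_rat l.support l (b := mx) fun s _ => int_mx s
  rw [show cmb l = ∑ s ∈ l.support, (q s : ℝ) • mx s from funext fun P =>
    let ⟨r, hr⟩ := hq P; hr.trans (e P r hr).symm]
  exact CarQ.sum _ fun s _ => (carQ_mx s).qsmul _

/-- a real principal b-divisor with rational values has a principal multiple -/
theorem prn_rat (h : β ∈ Prn K) (hq : ∀ P, ∃ q : ℚ, β P = q) :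
    ∃ (m : ℕ) (f : K), 0 < m ∧ f ≠ 0 ∧ (m : ℝ) • β = dv f := by
  obtain ⟨T, a, h0, rfl⟩ := mem_Prn.1 h
  obtain ⟨q, e⟩ := sum_rat T a (b := dv) fun f _ => int_dv f
  rw [show ∑ f ∈ T, a f • dv f = ∑ f ∈ T, (q f : ℝ) • dv f from funext fun P =>
    let ⟨r, hr⟩ := hq P; hr.trans (e P r hr).symm]
  refine Finset.sum_induction _ (fun β : BD K => ∃ (m : ℕ) (f : K), 0 < m ∧ f ≠ 0 ∧
    (m : ℝ) • β = dv f) ?_ ⟨1, 1, one_pos, one_ne_zero, by simp⟩ fun f hf =>
      ⟨(q f).den, f ^ (q f).num, (q f).pos, zpow_ne_zero _ (h0 f hf), ?_⟩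
  · rintro a b ⟨m, f, h1, h2, h3⟩ ⟨k, g, h4, h5, h6⟩
    refine ⟨m * k, f ^ k * g ^ m, Nat.mul_pos h1 h4,
      mul_ne_zero (pow_ne_zero _ h2) (pow_ne_zero _ h5), ?_⟩
    rw [dv_mul (pow_ne_zero _ h2) (pow_ne_zero _ h5), dv_pow, dv_pow, ← h3, ← h6, smul_smul,
      smul_smul, mul_comm (k : ℝ), ← smul_add, Nat.cast_mul]
  · rw [dv_zpow, smul_smul]
    congr 1
    exact_mod_cast (q f).den_mul_eq_num

/-- the row `MOD.zero` -/
theorem mod_zero : ForS fun _ K _ _ => ∀ β ∈ Prn K, 0 ≤ β → β = 0 :=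
  fun _ _ _ _ hK _ => prn_zero hK

/-- the row `MOD.int` -/
theorem mod_int : ForK fun _ K _ _ => ∀ β ∈ Car K, (∀ P, ∃ q : ℚ, β P = q) → CarQ β :=
  fun _ _ _ _ _ _ => carQ_of_rat

end Vale.Agent.P287D.Fs
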