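import Vale.Agent.P287D.Sk
import Vale.Agent.P287D.Fs.Mod
import Vale.Agent.P287D.Pr.Neg
import Vale.Agent.P287D.Pb.Gd
import Vale.Agent.P287D.Va.Dsc
import Vale.Agent.P287D.Ba.Sec

/-!
# P287D: the ends of the chain of links, trivial steps
-/

set_option linter.all false

open Set

noncomputable section

namespace Vale.Agent.P287D.Fs

variable {n : ℕ} {K K' : Type} [Field K] [Algebra ℂ K] [Field K'] [Algebra ℂ K']
  {β Λ Λ' B B' Γ Γ' : BD K}

/-- a function without poles is constant -/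
theorem const_of_nonneg (hK : FF K n) {f : K} (h : 0 ≤ dv f) : f ∈ range (algebraMap ℂ K) := by
  have := Ba.fin_car hK (zero_mem (Car K))
  have k : ∀ m : ℕ, f ^ m ∈ H0 (0 : BD K) := fun m => mem_H0.2 (by
    simpa using (show Sec 0 f from Or.inr (by simpa using h)).pow m)
  have a : IsAlgebraic ℂ f := by
    by_contra c
    have t : LinearIndependent ℂ fun m : ℕ => f ^ m := by
      have i := (Polynomial.basisMonomials ℂ).linearIndependent.map'
        (Polynomial.aeval f).toLinearMap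
        (LinearMap.ker_eq_bot.2 (transcendental_iff_injective.1 c))
      simpa [Function.comp_def] using i
    exact Module.Finite.not_linearIndependent_of_infinite (fun m : ℕ => (⟨_, k m⟩ : H0 (0 : BD K)))
      (LinearIndependent.of_comp (H0 0).subtype t)
  exact minpoly.mem_range_of_degree_eq_one ℂ f
    (IsAlgClosed.degree_eq_one_of_irreducible ℂ (minpoly.irreducible a.isIntegral))

theorem fld_prn (hK : FF K n) (h : β ∈ Prn K) : fld β = ⊥ := by
  classical
  refine le_bot_iff.1 (IntermediateField.adjoin_le_iff.2 fun f ⟨ε, e, k⟩ => ?_)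
  have a : (0 : BD K) ≤ ε • mx {1, f} := smul_nonneg e.le (mx_nonneg (by simp))
  have b := prn_zero hK (eff_anti hK (.of_nonneg a) (k.congr (by
    rw [show -(ε • mx {1, f}) - (β - ε • mx {1, f}) = -β by abel]; exact neg_mem h))) a
  rw [smul_eq_zero, or_iff_right e.ne', mx_one_pair] at b
  exact IntermediateField.mem_bot.2 (const_of_nonneg hK (neg_nonpos.1 (sup_eq_left.1 b)))

theorem dim_prn (hK : FF K n) (h : β ∈ Prn K) : dim β = 0 := by
  rw [dim, fld_prn hK h, (IntermediateField.botEquiv ℂ K).trdeg_eq, trdeg_eq_zero, map_zero]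

theorem term_on (h : Term n Λ Γ) {P : Pl K} (hP : On n Λ P) : dsc (n + 1) Γ P = 0 :=
  sub_eq_zero.2 (h.hull.2 P hP).symm

theorem term_nn (h : Term n Λ Γ) (P : Pl K) : 0 ≤ dsc (n + 1) Γ P :=
  (em (On n Λ P)).elim (fun k => (term_on h k).ge) fun k => (h.pos P k).le

theorem ft_of (h : Term n Λ Γ) (a : Nef (-Γ)) (b : Big (-Γ)) : FT K n :=
  ⟨Λ, Γ, h.smp, h.big, h.hull.1.car, fun _ k => (term_on h k).le,
    fun P => neg_one_lt_zero.trans_le (term_nn h P), a, b⟩

theorem ft_of_fano (h : Fano1 n Λ) : FT K n :=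
  let ⟨_, a, b⟩ := h.term
  ft_of a b.nef (b.big_iff.1 a.big)

/-- a field generated by the constants and the image of a function field -/
theorem gen_fin {φ : K →+* K'} (hK : FF K n) (h : Cst φ)
    (g : Subfield.closure (range φ ∪ range (algebraMap ℂ K')) = ⊤) :
    Algebra.trdeg ℂ K' ≤ n := by
  obtain ⟨y, h1, h2⟩ := hK
  let S := range (φ ∘ y)
  let A : Subfield K' :=
    { carrier := {a | IsAlgebraic (Algebra.adjoin ℂ S) a}
      mul_mem' := fun ha hb => ha.mul hb
      add_mem' := fun ha hb => ha.add hb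
      one_mem' := isAlgebraic_one
      zero_mem' := isAlgebraic_zero
      neg_mem' := fun ha => ha.neg
      inv_mem' := fun _ ha => IsAlgebraic.inv_iff.2 ha }
  have k : ⊤ ≤ A := g ▸ Subfield.closure_le.2 (union_subset (range_subset_iff.2 fun f =>
    Pb.alg_map φ (fun c => (h c).elim fun d e => e ▸ Subalgebra.algebraMap_mem _ d)
      (forall_mem_range.2 fun i => Algebra.subset_adjoin (mem_range_self (f := φ ∘ y) i))
      ((Bm.basis_of h1 h2).isAlgebraic.1 f)) (range_subset_iff.2 fun c =>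
        isAlgebraic_algebraMap (algebraMap ℂ (Algebra.adjoin ℂ S) c)))
  exact (Pb.trdeg_le_of_hom (AlgHom.id ℂ K') S fun a => k (Subfield.mem_top a)).trans
    (Cardinal.mk_range_le.trans (Cardinal.mk_fin n).le)

theorem ext_cst {L : IntermediateField ℂ K} {φ : K →+* K'} (h : Ext L φ) : Cst φ :=
  fun c => h.cst _ (L.algebraMap_mem c)

/-- extensions of function fields are good -/
theorem ext_ok {L : IntermediateField ℂ K} {φ : K →+* K'} (hK : FF K n) (h : Ext L φ) : Ok φ :=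
  ok_ext ((gen_fin hK (ext_cst h) h.gen).trans_lt Cardinal.natCast_lt_aleph0) h

theorem fld_eq (h : AmpOn Λ Λ') : fld Λ = fld Λ' :=
  le_antisymm (Pr.fld_mono h.dsc') (Pr.fld_mono h.1)

theorem dim_eq (h : fld Λ = fld Λ') : dim Λ = dim Λ' := by rw [dim, dim, h]

theorem term_eq (hR : RES) (hK : FF K (n + 1)) (h : Term n Λ Γ) (h' : Term n Λ' Γ')
    (a : AmpOn Λ Λ') : Γ = Γ' :=
  Pr.hart_eq hR hK h.smp h.big h.hull.1 (a.dsc_iff.2 h'.hull.1) fun P k =>
    (h.hull.2 P k).trans (h'.hull.2 P ((Pr.on_iff hR hK h.smp a).1 k)).symm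

theorem pot2_congr {S : Cls} (hK : FF K n) (a : AmpOn Λ Λ') (e : fld B = fld B')
    (h : Pot2 S Λ B Γ) : Pot2 S Λ' B' Γ := by
  obtain ⟨K', _, _, φ, f, h1, h2, h3, h4, h5⟩ := h
  exact ⟨K', _, _, φ, f, e ▸ h1, h2, h3, ((ext_ok hK h1.toExt).ampOn a).dsc_iff.1 h4, e ▸ h5⟩

theorem pot_congr {S : Cls} (hK : FF K n) (a : AmpOn Λ Λ') (e : fld B = fld B')
    (h : Pot S Λ B Γ) : Pot S Λ' B' Γ :=
  h.imp (fun k => ⟨dim_eq e ▸ k.1, pot2_congr hK a e k.2⟩) fun k => ⟨dim_eq e ▸ k.1, e ▸ k.2⟩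

end Vale.Agent.P287D.Fs
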