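import Vale.Agent.P287D.Sk2
import Vale.Agent.P287D.D2.Rul
import Vale.Agent.P287D.Cb.Mov
import Vale.Agent.P287D.Br.Gp

/-!
# P287D: the subfields of rational fields have `p_g = 0`
-/

set_option linter.all false

open Set IntermediateField

noncomputable section

namespace Vale.Agent.P287D.Fs

variable {m : ℕ} {F : Type} [Field F] [Algebra ℂ F]

/-- a field with an effective canonical divisor in a ruled field lies in the base -/
theorem mem_of_ruled {n : ℕ} {K : Type} [Field K] [Algebra ℂ K] (hK : FF K n)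
    {M : IntermediateField ℂ K} (hM : Ruled M) (hF : FF F m) {w : F} (hw : 0 ≤ cn F m + dv w)
    (χ : F →ₐ[ℂ] K) (a : F) : χ a ∈ M := by
  obtain ⟨E, _, _, ψ, h⟩ := gen_ex _ K hK M hM.cld
  obtain ⟨p, q⟩ := hM.g0 h.toExt
  by_contra k
  obtain ⟨c, hc⟩ := D2.cst_of_sec Cb.gd hF hw p q (χ := ψ.comp χ.toRingHom)
    (fun c => h.cst _ (χ.commutes c ▸ M.algebraMap_mem c)) a
  exact D2.nc_map h.toExt k c hc.symm

/-- a field with an effective canonical divisor in a rational field is trivial -/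
theorem cst_of_rat (hF : FF F m) {w : F} (hw : 0 ≤ cn F m + dv w) : ∀ (n : ℕ) (K : Type) [Field K]
    [Algebra ℂ K] (x : Fin n → K), AlgebraicIndependent ℂ x → adjoin ℂ (range x) = ⊤ →
    ∀ (χ : F →ₐ[ℂ] K) (a : F), a ∈ range (algebraMap ℂ F)
  | 0, K, _, _, x, _, e, χ, a => by
    rw [range_eq_empty, adjoin_empty] at e
    obtain ⟨c, hc⟩ := mem_bot.1 (e.ge (mem_top (x := χ a)))
    exact ⟨c, χ.injective ((χ.commutes c).trans hc)⟩
  | n + 1, K, _, _, x, h, e, χ, a => by
    let M := adjoin ℂ (range (Fin.tail x))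
    have r : Ruled M := ⟨x 0, fun k => h.transcendental_adjoin (s := range Fin.succ) (i := 0)
      (by simp) (by rw [← range_comp]; exact isAlgebraic_adjoin_iff.1 k), by
        apply restrictScalars_injective ℂ
        rw [adjoin_adjoin_left, restrictScalars_top, ← e, Fin.range_fin_succ, union_comm]
        rfl⟩
    let y : Fin n → M := fun i => ⟨x i.succ, subset_adjoin _ _ ⟨i, rfl⟩⟩
    refine cst_of_rat hF hw n M y (.of_comp M.val (h.comp _ (Fin.succ_injective n)))
      (lift_injective _ ?_) (χ.codRestrict M.toSubalgebra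
        (mem_of_ruled ⟨x, h, D2.fin_top e⟩ r hF hw χ)) a
    rw [lift_adjoin, lift_top, ← range_comp]
    rfl

theorem pg_of_rat {n : ℕ} {K : Type} [Field K] [Algebra ℂ K] {x : Fin n → K}
    (h : AlgebraicIndependent ℂ x) (e : adjoin ℂ (range x) = ⊤) (hF : FF F (m + 1))
    (χ : F →ₐ[ℂ] K) : pg F (m + 1) = 0 := by
  by_contra p
  obtain ⟨w, -, hw⟩ := D2.exists_sec p
  obtain ⟨y, hy, -⟩ := id hF
  obtain ⟨c, hc⟩ := cst_of_rat hF hw n K x h e χ (y 0)
  exact hy.transcendental 0 (hc ▸ isAlgebraic_algebraMap c)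

/-- affine coordinates -/
theorem exists_aff {n : ℕ} {K : Type} [Field K] [Algebra ℂ K] (hK : FF K n) {y : Fin (n + 1) → K}
    (h0 : ∃ j, y j ≠ 0) (h : Nc.fl (fun _ => ()) y = ⊤) :
    ∃ x : Fin n → K, AlgebraicIndependent ℂ x ∧ adjoin ℂ (range x) = ⊤ := by
  obtain ⟨j, hj⟩ := h0
  have e : adjoin ℂ (range fun i => y (j.succAbove i) / y j) = ⊤ := by
    have k : ∀ i, y i / y j ∈ adjoin ℂ (range fun i => y (j.succAbove i) / y j) := fun i => by
      rcases Fin.eq_self_or_eq_succAbove j i with rfl | ⟨i, rfl⟩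
      · rw [div_self hj]
        exact one_mem _
      · exact subset_adjoin _ _ ⟨i, rfl⟩
    refine top_le_iff.1 (h.ge.trans (adjoin_le_iff.2 ?_))
    rintro _ ⟨a, b, -, rfl⟩
    rw [← div_div_div_cancel_right₀ hj]
    exact div_mem (k a) (k b)
  have := D2.fin_top e
  have : Algebra.IsAlgebraic (Algebra.adjoin ℂ (range fun i => y (j.succAbove i) / y j)) K :=
    ⟨fun a => isAlgebraic_adjoin_iff.1 (Algebra.IsAlgebraic.isAlgebraic a)⟩
  exact ⟨_, (Algebra.IsAlgebraic.isTranscendenceBasis_of_le_trdeg_of_finite ℂ _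
    ((Cardinal.mk_fin n).trans hK.trdeg.symm).le).1, e⟩

/-- **PGR** -/
def PGR : Prop := ∀ (K : Type) [Field K] [Algebra ℂ K] (y : Fin 5 → K),
  Nc.Gp (P287Q.Pn 4) y → Pg0 K

theorem pgr : PGR := fun _ _ _ _ h L hL =>
  let ⟨_, a, b⟩ := exists_aff (Br.ff_of_gp h) ((h.nz ()).imp fun _ a => a.2) h.top
  pg_of_rat a b hL L.val

end Vale.Agent.P287D.Fs
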